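import Vale.Agent.P263C25.Rows

/-!
# P263C: `phi` is computed by `Phi`
-/

open CategoryTheory OnePoint

namespace Vale.Agent.P263C

open Vale.Agent.P263 Vale.Agent.P263A Vale.Agent.P263.FR Vale.Agent.P263.E Vale.Agent.P263.G2
  Vale.Agent.P263.TJ

theorem phi_row (hc0 : P263B15.CONV) : P263C25.PHI := by
  intro q i F hq hF hR hN hN2 c cN hinf hc hcN u hu du
  have hconv := conv_of hc0
  have hqd : q < q + q := by omega
  let Q : QF (Mfd F) q := QF.ofC (d := q + q) (i := i) hq hqd cN hinf (nondeg_reg hq hF hR hc hcN)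
  have e : c = TopCat.ofHom cN := by
    ext w
    exact hcN w
  refine Eq.trans ?_ (Q.phi_cl u hu du)
  by_cases hx : PhiZero c (FR.cl (X := Mfd F) q u du)
  · rw [phi_eq_zero hx]
    refine Eq.trans ?_ (Q.phi_cl u hu du).symm
    exact (Phi_of_phiZeroT hq hqd hinf hcN hx hu du rfl).symm
  · rw [phi_eq_one hx]
    refine ((z2 (Q.phi _)).resolve_left fun h0 => hx ?_).symm
    by_cases h1 : ∃ x₀, Q.phi x₀ = 1
    · obtain ⟨x₀, h1⟩ := h1
      obtain ⟨v, dv, hv, rfl⟩ := exists_cl x₀
      rw [e]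
      exact hconv (Mfd F) q i hq cN hinf u v hu du hv dv ((Q.phi_cl v hv dv).symm.trans h1)
        ((Q.phi_cl u hu du).symm.trans h0)
    · have h2 : ∀ y, Q.phi y = 0 := fun y => (z2 _).resolve_right fun h => h1 ⟨y, h⟩
      have h3 : FR.cl (X := Mfd F) q u du = 0 := Q.bil_nonsing _ fun y => by
        have h4 := Q.phi_add y (FR.cl (X := Mfd F) q u du)
        rw [h2, h2, h2, zero_add, zero_add] at h4
        exact h4.symm
      rw [h3]
      exact phiZero_zero c (collapse_pt hF hc)

end Vale.Agent.P263C
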