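import Vale.Agent.P263C6.Well
import Vale.Agent.P263C6.Phi
import Vale.Agent.P263C39.RelRow
import Vale.Agent.P263C87.Fam
import Vale.Agent.P263C64.Dbl
import Vale.Agent.P263C24.Col
import Vale.Agent.P263C90.Row
import Vale.Agent.P263C56.Row
import Vale.Agent.P263C76.Row
import Vale.Agent.P263C15.Reps
import Vale.Agent.P263C25.Inv
import Vale.Agent.P263B64.All

/-!
# P263C: the invariance of the Kervaire invariant
-/

namespace Vale.Agent.P263C

/-- **Framed manifolds of homotopic maps have the same Arf invariant.** -/
theorem inv_all : INV :=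
  inv_of P263B64.conv (P263C25.inv (P263C87.fam P263C39.rel) P263C64.dbl P263C24.col P263C90.htp
    P263C56.gauss (phi_row P263B64.conv)) P263C76.sus' P263C15.reps

end Vale.Agent.P263C
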