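import Vale.Agent.P263B6.Defs

/-!
# P263: the Kervaire invariant of a stable class

* `Framed g F c` : `N = F⁻¹(0)` with the collapse map `c` is a framed manifold of `g`.
* `HasArf h c a` : the quadratic form of the framed manifold has Arf invariant `a`.
* `KervInv h g a` : some framed manifold of `g` has Arf invariant `a`.
* `KervaireOne g`, `VK d` : Kervaire invariant one; the subspace `V_d`.
-/

open CategoryTheory

namespace Vale.Agent.P263C

open Vale.Agent.P263.ST Vale.Agent.P263.FR Vale.Agent.P263A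

/-- A representative `S^{d+n} → Sⁿ` of `g` is homotopic to the map `F`, which is smooth near the
framed manifold `N = F⁻¹(0)`, and `c` is the collapse map of `N`. -/
def Framed {d n : ℕ} (g : BMap d) (F : Sph (d + n) ⟶ Sph n) (c : Sph (d + n) ⟶ Th n (Mfd F)) :
    Prop :=
  ∃ F₀ : Sph (d + n) ⟶ Sph n, Rep g F₀ ∧ Htpc (pt (d + n)) F₀ F ∧ Regular F ∧ IsCollapse F c

/-- The form `φ` on `H^q(N; 𝔽₂)` has Arf invariant `a` for the pairing `⟨x ∪ y, [N]⟩`. -/
def HasArf {m n d q : ℕ} {N : TopCat.{0}} (h : q + q = d) (c : Sph m ⟶ Th n N) (a : ZMod 2) :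
    Prop :=
  ∃ (z : (H d).obj N) (r : ℕ) (e : Module.Basis (Fin r ⊕ Fin r) (ZMod 2) (Coh q N)),
    IsFund z ∧ IsSymplectic (fun x y => cup h x y z) e ∧ arf (phi c) e = a

/-- A framed manifold of `g`, of dimension `d = 2q`, has Arf invariant `a`. -/
def KervInv {d q : ℕ} (h : q + q = d) (g : BMap d) (a : ZMod 2) : Prop :=
  ∃ (n : ℕ) (F : Sph (d + n) ⟶ Sph n) (c : Sph (d + n) ⟶ Th n (Mfd F)), Framed g F c ∧ HasArf h c a

/-- **Kervaire invariant one**: `d = 2q`, `q` odd, and the Kervaire invariant of `g` is one. -/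
def KervaireOne {d : ℕ} (g : BMap d) : Prop := ∃ (q : ℕ) (h : q + q = d), Odd q ∧ KervInv h g 1

/-- `V_d`: the span of the classes `h_d(g)`, where `g` is one of `±η`, `±ν`, `±σ` or has Kervaire
invariant one. -/
noncomputable def VK (d : ℕ) : Submodule (ZMod 2) ((H d).obj Q0S0) :=
  Submodule.span (ZMod 2) (hur '' {g : BMap d | IsHopf g ∨ KervaireOne g})

end Vale.Agent.P263C
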