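import Vale.Agent.P263C6.Defs
import Vale.Agent.P263B6.Top

/-!
# P263, Kervaire invariant: the statement from Brown's theorem and the invariance
-/

open CategoryTheory OnePoint

namespace Vale.Agent.P263C

open Vale.Agent.P263.ST Vale.Agent.P263.FR Vale.Agent.P263A

/-- framed manifolds of homotopic maps have the same Arf invariant -/
def INV : Prop :=
  ∀ (d q : ℕ) (h : q + q = d) (g g' : BMap d) (a a' : ZMod 2), 0 < q →
    Htpc (pt d) g.hom g'.hom → KervInv h g a → KervInv h g' a' → a' = a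

theorem kervaireOne_iff {d : ℕ} (g : BMap d) : KervaireOne g ↔ KervArf g :=
  ⟨fun ⟨q, h, ho, n, F, c, ⟨F₀, h1, h2, h3, h4⟩, z, r, e, h5⟩ =>
      ⟨q, n, h, F₀, F, c, z, r, e, ho, h1, h2, h3, h4, h5⟩,
    fun ⟨q, n, h, F₀, F, c, z, r, e, ho, h1, h2, h3, h4, h5⟩ =>
      ⟨q, h, ho, n, F, c, ⟨F₀, h1, h2, h3, h4⟩, z, r, e, h5⟩⟩

theorem VK_eq (d : ℕ) : VK d = VArf d := by
  simp only [VK, VArf, kervaireOne_iff]

theorem Framed.map_pt {d n : ℕ} {g : BMap d} {F : Sph (d + n) ⟶ Sph n}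
    {c : Sph (d + n) ⟶ Th n (Mfd F)} (h : Framed g F c) : F (pt (d + n)) = pt n := by
  obtain ⟨F₀, h1, ⟨G⟩, -⟩ := h
  have := G.eq_snd 0 (x := pt (d + n)) rfl
  have h0 := G.eq_fst 0 (x := pt (d + n)) rfl
  exact (this.symm.trans h0).trans h1.1

theorem top (hc : P263B15.CONV) (hi : INV) :
    (∀ d : ℕ, 0 < d → Set.range (hur (d := d)) = VK d) ∧
    (∀ (d : ℕ) (g : BMap d), 0 < d → hur g ≠ 0 → (d = 1 ∨ d = 3 ∨ d = 7) ∨ KervaireOne g) ∧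
    (∀ d : ℕ, d = 1 ∨ d = 3 ∨ d = 7 → ∃ g : BMap d, IsHopf g) ∧
    (∀ (d : ℕ) (g : BMap d), 0 < d →
      ∃ (n : ℕ) (F : Sph (d + n) ⟶ Sph n) (c : Sph (d + n) ⟶ Th n (Mfd F)), Framed g F c) ∧
    (∀ (d q : ℕ) (h : q + q = d) (g : BMap d), 0 < q → ∃ a : ZMod 2, KervInv h g a ∧
      ∀ (g' : BMap d) (a' : ZMod 2), Htpc (pt d) g.hom g'.hom → KervInv h g' a' → a' = a) ∧
    (∀ (X : TopCat.{0}) (p q n : ℕ) (h : p + q = n) (x : Coh p X) (y : Coh q X),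
      ∃! w : Coh n X, IsCup h x y w) ∧
    ∀ (d q n : ℕ) (h : q + q = d) (F : Sph (d + n) ⟶ Sph n), 0 < q → F (pt (d + n)) = pt n →
      Regular F → (∃! z : (H d).obj (Mfd F), IsFund z) ∧
        ∀ (c : Sph (d + n) ⟶ Th n (Mfd F)) (z : (H d).obj (Mfd F)), IsCollapse F c → IsFund z →
          IsArfForm (fun x y : Coh q (Mfd F) => cup h x y z) (phi c) := by
  obtain ⟨h1, h2, h3, h4, h5, h6⟩ := P263A.top hc
  have h4' : ∀ (d : ℕ) (g : BMap d), 0 < d →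
      ∃ (n : ℕ) (F : Sph (d + n) ⟶ Sph n) (c : Sph (d + n) ⟶ Th n (Mfd F)), Framed g F c :=
    fun d g hd => let ⟨n, F₀, F, c, h⟩ := h4 d g hd; ⟨n, F, c, F₀, h⟩
  refine ⟨fun d hd => (h1 d hd).trans (congrArg _ (VK_eq d).symm), fun d g hd hg =>
    (h2 d g hd hg).imp id (kervaireOne_iff g).2, h3, h4', fun d q h g hq => ?_, h5, h6⟩
  obtain ⟨n, F, c, hF⟩ := h4' d g (by omega)
  obtain ⟨⟨z, hz, -⟩, h7⟩ := h6 d q n h F hq hF.map_pt hF.choose_spec.2.2.1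
  obtain ⟨-, -, r, e, he, -⟩ := h7 c z hF.choose_spec.2.2.2 hz
  have hk : KervInv h g (arf (phi c) e) := ⟨n, F, c, hF, z, r, e, hz, he, rfl⟩
  exact ⟨_, hk, fun g' a' hg hk' => hi d q h g g' _ a' hq hg hk hk'⟩

end Vale.Agent.P263C
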