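import Vale.Agent.P263C6.Top
import Vale.Agent.P263C25.Rows

/-!
# P263, Kervaire invariant: reduction of the invariance to one homotopy at one level
-/

open CategoryTheory OnePoint

namespace Vale.Agent.P263C

open Vale.Agent.P263.ST Vale.Agent.P263.FR Vale.Agent.P263A Vale.Agent.P263C25

theorem z2_iff {a b : ZMod 2} (h : a = 1 ↔ b = 1) : a = b := by
  revert a b
  decide

/-- the Arf invariant is the value of the majority -/
theorem HasArf.iff_maj (hc : P263B15.CONV) {q n : ℕ} {g : BMap (q + q)} (hq : 0 < q)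
    {F : Sph (q + q + n) ⟶ Sph n} {c : Sph (q + q + n) ⟶ Th n (Mfd F)} (hF : Framed g F c)
    {a : ZMod 2} (ha : HasArf (rfl : q + q = q + q) c a) : a = 1 ↔ Maj q c := by
  obtain ⟨z, r, e, hz, he, rfl⟩ := ha
  have hR := hF.choose_spec.2.2.1
  have hN : CompactSpace (Mfd F) := compactSpace_Mfd hF.map_pt
  have hN2 : T2Space (Mfd F) := t2Space_Mfd
  have hfin := finite_coh_reg hF.map_pt hR q
  obtain ⟨⟨h3, h4, -⟩, h5⟩ := (framed P263B14.cup_row (P263B25.fund tub) (conv_of hc) (q + q) q n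
    rfl F hq hF.map_pt hR).2 c z hF.choose_spec.2.2.2 hz
  exact (P263B14.alg _ _ _ h3 h5 h4).2 r e he

/-- iterated suspension -/
theorem Framed.exists_le (hs : SUS) {q n : ℕ} {g : BMap (q + q)} (hq : 0 < q)
    {F : Sph (q + q + n) ⟶ Sph n} {c : Sph (q + q + n) ⟶ Th n (Mfd F)} (hF : Framed g F c)
    {r : ℕ} (hr : n ≤ r) : ∃ (F' : Sph (q + q + r) ⟶ Sph r)
      (c' : Sph (q + q + r) ⟶ Th r (Mfd F')), Framed g F' c' ∧ (Maj q c ↔ Maj q c') := by
  induction r, hr using Nat.le_induction with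
  | base => exact ⟨F, c, hF, Iff.rfl⟩
  | succ r _ ih =>
    obtain ⟨F', c', ⟨F₀, h1, h2, h3, h4⟩, h5⟩ := ih
    obtain ⟨G₀, G, b, k1, k2, k3, k4, k5⟩ := hs q r g F₀ F' c' hq h1 h2 h3 h4
    exact ⟨G, b, ⟨G₀, k1, k2, k3, k4⟩, h5.trans k5⟩

/-- `INV` for two given maps -/
theorem inv_two (hi : P263C25.INV) {q i : ℕ} (hq : 0 < q)
    {G G' : Sph (q + q + (i + 1)) ⟶ Sph (i + 1)} {b : Sph (q + q + (i + 1)) ⟶ Th (i + 1) (Mfd G)}
    {b' : Sph (q + q + (i + 1)) ⟶ Th (i + 1) (Mfd G')} (hp : G (pt _) = pt _)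
    (hp' : G' (pt _) = pt _) (k3 : Regular G) (k3' : Regular G') (k4 : IsCollapse G b)
    (k4' : IsCollapse G' b') (hh : Htpc (pt _) G G') : Maj q b ↔ Maj q b' := by
  let F : Bool → (Sph (q + q + (i + 1)) ⟶ Sph (i + 1)) := fun t => cond t G' G
  let c : ∀ t, Sph (q + q + (i + 1)) ⟶ Th (i + 1) (Mfd (F t)) := fun t =>
    match t with
    | false => b
    | true => b'
  refine hi q i F c hq (fun t => ?_) (fun t => ?_) (fun t => ?_) hh
  · cases t
    exacts [hp, hp']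
  · cases t
    exacts [k3, k3']
  · cases t
    exacts [k4, k4']

theorem maj_iff (hi : P263C25.INV) (hs : SUS) (hr : REPS) {q n n' : ℕ} {g g' : BMap (q + q)}
    (hq : 0 < q) (hg : Htpc (pt _) g.hom g'.hom)
    {F : Sph (q + q + n) ⟶ Sph n} {c : Sph (q + q + n) ⟶ Th n (Mfd F)} (hF : Framed g F c)
    {F' : Sph (q + q + n') ⟶ Sph n'} {c' : Sph (q + q + n') ⟶ Th n' (Mfd F')}
    (hF' : Framed g' F' c') : Maj q c ↔ Maj q c' := by
  obtain ⟨r₀, hr₀⟩ := hr _ g g' hg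
  obtain ⟨G, b, hG, h1⟩ := hF.exists_le hs hq (r := n + n' + r₀ + 1) (by omega)
  obtain ⟨G', b', hG', h1'⟩ := hF'.exists_le hs hq (r := n + n' + r₀ + 1) (by omega)
  refine h1.trans (Iff.trans ?_ h1'.symm)
  have hp := hG.map_pt
  have hp' := hG'.map_pt
  obtain ⟨G₀, k1, k2, k3, k4⟩ := hG
  obtain ⟨G₀', k1', k2', k3', k4'⟩ := hG'
  have hh : Htpc (pt _) G G' :=
    (ContinuousMap.HomotopicRel.symm k2).trans
      (ContinuousMap.HomotopicRel.trans (hr₀ _ (by omega) G₀ G₀' k1 k1') k2')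
  exact inv_two hi hq hp hp' k3 k3' k4 k4' hh

theorem inv_of (hc : P263B15.CONV) (hi : P263C25.INV) (hs : SUS) (hr : REPS) : P263C.INV := by
  rintro d q rfl g g' a a' hq hg ⟨n, F, c, hF, ha⟩ ⟨n', F', c', hF', ha'⟩
  exact z2_iff ((ha'.iff_maj hc hq hF').trans ((maj_iff hi hs hr hq hg hF hF').symm.trans
    (ha.iff_maj hc hq hF).symm))

theorem well (hc : P263B15.CONV) (hi : P263C25.INV) (hs : SUS) (hr : REPS) : WELL :=
  fun d q n n' r r' h g g' F₀ F F₀' F' c c' z z' e e' hq hg h1 h2 h3 h4 h5 h6 k1 k2 k3 k4 k5 k6 =>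
    (inv_of hc hi hs hr d q h g g' _ _ hq hg ⟨n, F, c, ⟨F₀, h1, h2, h3, h4⟩, z, r, e, h5, h6, rfl⟩
      ⟨n', F', c', ⟨F₀', k1, k2, k3, k4⟩, z', r', e', k5, k6, rfl⟩).symm

end Vale.Agent.P263C
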